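import Vale.Agent.P354CB51.Base

/-!
Hulls: inextendible curves in a hull meet the Cauchy surface, and conversely.
-/

open Set Filter Topology

namespace Vale.Agent.P354CB41

open Vale.Agent.P354n Vale.Agent.P354CB

variable {M : Spc} {S U : Set M.pt} {a b : ℝ} {c : ℝ → M.pt}

/-- A curve in a hull without past end point in it leaves the future of S. -/
theorem low (L : L1) (h : St M) (G : G1 M S) (O : G2 M S) (H : Hull M S U) (ab : a < b)
    (k : Cv M (Ioo a b) c) (m : MapsTo c (Ioo a b) U) (n : NoP c a U) :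
    ∃ t ∈ Ioo a b, c t ∉ Fu M S := by
  by_contra! f
  obtain ⟨t, t1, t2⟩ := exists_between ab
  obtain ⟨t', t3, t4⟩ := exists_between t2
  have ll : ∀ s u, a < s → s < u → u < b → LL M (c s) (c u) := fun s u x y z =>
    L.b.ll_cv h k (Icc_subset_Ioo x z) y
  by_cases u : NoP c a univ
  · obtain ⟨s, s1, s2⟩ := G.nopast a t c t1
      (L.b.mono k (Ioc_subset_Ioo_right t2) (uniqueDiffOn_Ioc a t)) u
    exact L.fu_pa h G (f s ⟨s1.1, s1.2.trans_lt t2⟩) s2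
  simp only [NoP, mem_univ, forall_const, not_forall, not_not] at u
  obtain ⟨z, u⟩ := u
  have := O.cl.mem_of_tendsto (u.prodMk_nhds (tendsto_const_nhds (x := c t)))
    (mem_of_superset (Ioo_mem_nhdsGT t1) fun s hs =>
      ⟨L.fu_pa h G (f s ⟨hs.1, hs.2.trans t2⟩), L.le h (ll s t hs.1 hs.2 t2)⟩)
  exact n z (H.dn _ (m ⟨t1.trans t3, t4⟩) z (this.2.1 _ (ll t t' t1 t3 t4)) this.1) u

theorem flip_cv (B : B0) (h : St M) (k : Cv M (Ioo a b) c) :
    Cv (rev M) (Ioo a b) fun t => c (a + b - t) := by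
  rw [B.cv_rev h (a + b)]
  have e : (fun t : ℝ => a + b - t) ⁻¹' Ioo a b = Ioo a b := by
    ext t; simp only [mem_preimage, mem_Ioo]; constructor <;> intro x <;> constructor <;>
      linarith [x.1, x.2]
  simpa only [e, sub_sub_cancel] using k

theorem flip_no {Z : Type} [TopologicalSpace Z] {c : ℝ → Z} {U : Set Z} (n : NoF c b U) :
    NoP (fun t => c (a + b - t)) a U := fun x hx u => n x hx <| by
  have e : Tendsto (fun t : ℝ => a + b - t) (𝓝[<] b) (𝓝[>] a) := by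
    refine tendsto_nhdsWithin_iff.2 ⟨?_, eventually_mem_nhdsWithin.mono fun t ht => ?_⟩
    · have : Tendsto (fun t : ℝ => a + b - t) (𝓝 b) (𝓝 (a + b - b)) :=
        (continuous_const.sub continuous_id).tendsto b
      rw [add_sub_cancel_right] at this
      exact this.mono_left nhdsWithin_le_nhds
    · have : t < b := ht
      show a < a + b - t
      linarith
  simpa only [Function.comp_def, sub_sub_cancel] using u.comp e

theorem meets (L : L1) (g1 : GONE) (g2 : ORD) (K : GH0 M S) (H : Hull M S U) (ab : a < b)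
    (k : Cv M (Ioo a b) c) (m : MapsTo c (Ioo a b) U) (n : NoP c a U) (n' : NoF c b U) :
    ∃ t ∈ Ioo a b, c t ∈ S := by
  have h := K.st
  have G := g1 M S K
  have fl : ∀ t ∈ Ioo a b, a + b - t ∈ Ioo a b := fun t x => ⟨by linarith [x.2], by linarith [x.1]⟩
  obtain ⟨s, s1, s2⟩ := low L h G (g2 M S K) H ab k m n
  obtain ⟨t, t1, t2⟩ := low L (L.b.st_rev h) (g1 _ _ (L.b.gh0_rev K)) (g2 _ _ (L.b.gh0_rev K))
    ((L.b.hull_rev h).2 H) ab (flip_cv L.b h k) (fun t x => m (fl t x)) (flip_no n')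
  rw [L.b.fu_rev h] at t2
  by_contra! f
  obtain ⟨x, -, x1, x2⟩ := isPreconnected_Ioo.image c k.1 _ _ (L.opFu h S) (L.opPa h S)
    (by rintro _ ⟨t, ht, rfl⟩; exact (G.tri _).resolve_left (f t ht))
    ⟨_, ⟨_, fl t t1, rfl⟩, ((G.tri _).resolve_left (f _ (fl t t1))).resolve_right t2⟩
    ⟨_, ⟨s, s1, rfl⟩, ((G.tri _).resolve_left (f s s1)).resolve_left s2⟩
  exact L.fu_pa h G x1 x2

/-- The largest interval about a point of a bounded open set. -/
theorem comp_int {T : Set ℝ} (o : IsOpen T) (s : T ⊆ Ioo a b) {t : ℝ} (ht : t ∈ T) :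
    ∃ p q, a ≤ p ∧ p < t ∧ t < q ∧ q ≤ b ∧ Ioo p q ⊆ T ∧ p ∉ T ∧ q ∉ T := by
  have a1 : a ∈ Tᶜ ∩ Iic t := ⟨fun x => lt_irrefl _ (s x).1, (s ht).1.le⟩
  have b1 : b ∈ Tᶜ ∩ Ici t := ⟨fun x => lt_irrefl _ (s x).2, (s ht).2.le⟩
  have a2 : BddAbove (Tᶜ ∩ Iic t) := ⟨t, fun _ x => x.2⟩
  have b2 : BddBelow (Tᶜ ∩ Ici t) := ⟨t, fun _ x => x.2⟩
  have a3 := (o.isClosed_compl.inter isClosed_Iic).csSup_mem ⟨a, a1⟩ a2
  have b3 := (o.isClosed_compl.inter isClosed_Ici).csInf_mem ⟨b, b1⟩ b2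
  refine ⟨_, _, le_csSup a2 a1, lt_of_le_of_ne a3.2 fun e => a3.1 (by rwa [e]),
    lt_of_le_of_ne b3.2 fun e => b3.1 (by rwa [← e]), csInf_le b2 b1, fun x hx => ?_, a3.1, b3.1⟩
  by_contra n
  rcases le_total x t with l | l
  · exact (le_csSup a2 ⟨n, l⟩).not_gt hx.1
  · exact (csInf_le b2 ⟨n, l⟩).not_gt hx.2

/-- The property of U that its inextendible curves meet S. -/
def Mt (M : Spc) (S U : Set M.pt) : Prop :=
  ∀ (a b : ℝ) c, a < b → Cv M (Ioo a b) c → MapsTo c (Ioo a b) U →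
    NoP c a U → NoF c b U → ∃ t ∈ Ioo a b, c t ∈ S

/-- An inextendible curve runs inside U from each of its points in U to S. -/
theorem run (B : B0) (o : IsOpen U) (m : Mt M S U) (k : Cv M (Ioo a b) c) (n : NoP c a univ)
    (n' : NoF c b univ) {t : ℝ} (ht : t ∈ Ioo a b) (u : c t ∈ U) :
    ∃ s ∈ Ioo a b, c s ∈ S ∧ ∀ r ∈ uIcc s t, c r ∈ U := by
  obtain ⟨p, q, p1, p2, q1, q2, i, p3, q3⟩ := comp_int
    (k.1.isOpen_inter_preimage isOpen_Ioo o) inter_subset_left (t := t) ⟨ht, u⟩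
  have j : Ioo p q ⊆ Ioo a b := Ioo_subset_Ioo p1 q2
  obtain ⟨s, s1, s2⟩ := m p q c (p2.trans q1) (B.mono k j isOpen_Ioo.uniqueDiffOn)
    (fun r hr => (i hr).2) (fun x hx l => by
      rcases p1.eq_or_lt with rfl | y
      · exact n x trivial l
      have z : p ∈ Ioo a b := ⟨y, p2.trans ht.2⟩
      have := tendsto_nhds_unique l
        ((k.1.continuousAt (isOpen_Ioo.mem_nhds z)).mono_left nhdsWithin_le_nhds)
      exact p3 ⟨z, show c p ∈ U from this ▸ hx⟩) (fun x hx l => by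
      rcases q2.eq_or_lt with rfl | y
      · exact n' x trivial l
      have z : q ∈ Ioo a b := ⟨ht.1.trans q1, y⟩
      have := tendsto_nhds_unique l
        ((k.1.continuousAt (isOpen_Ioo.mem_nhds z)).mono_left nhdsWithin_le_nhds)
      exact q3 ⟨z, show c q ∈ U from this ▸ hx⟩)
  exact ⟨s, j s1, s2, fun r hr => (i (ordConnected_Ioo.uIcc_subset s1 ⟨p2, q1⟩ hr)).2⟩

theorem of_meets (B : B0) (h : St M) (G : G1 M S) (o : IsOpen U) (m : Mt M S U) : Hull M S U := by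
  have m0 := left_mem_Icc.2 (zero_le_one' ℝ)
  have m1 := right_mem_Icc.2 (zero_le_one' ℝ)
  have i0 : (0 : ℝ) ∈ Ioo (0 - 1 : ℝ) (1 + 1) := ⟨by norm_num, by norm_num⟩
  have i1 : (1 : ℝ) ∈ Ioo (0 - 1 : ℝ) (1 + 1) := ⟨by norm_num, by norm_num⟩
  refine ⟨o, ?_, ?_⟩
  · rintro _ x _ ⟨u, u1, rfl, rfl⟩ n
    obtain ⟨w, w1, w2, w3, w4⟩ := G.ext 0 1 u one_pos u1
    rw [← w2 m1] at x
    rw [← w2 m0] at n ⊢
    obtain ⟨s, s1, s2, s3⟩ := run B o m w1 w3 w4 i1 x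
    rcases le_or_gt s 0 with l | l
    · exact s3 0 (mem_uIcc_of_le l zero_le_one)
    · exact (n ⟨_, s2, B.ll_cv h w1 (Icc_subset_Ioo i0.1 s1.2) l⟩).elim
  · rintro _ x _ ⟨u, u1, rfl, rfl⟩ n
    obtain ⟨w, w1, w2, w3, w4⟩ := G.ext 0 1 u one_pos u1
    rw [← w2 m0] at x
    rw [← w2 m1] at n ⊢
    obtain ⟨s, s1, s2, s3⟩ := run B o m w1 w3 w4 i0 x
    rcases le_or_gt 1 s with l | l
    · exact s3 1 (mem_uIcc_of_ge zero_le_one l)
    · exact (n ⟨_, s2, B.ll_cv h w1 (Icc_subset_Ioo s1.1 i1.2) l⟩).elim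

theorem con (L : L1) (h : St M) (G : G1 M S) (H : Hull M S U) {x : M.pt} (hx : x ∈ U) :
    ∃ s ∈ S, ∃ C ⊆ U, IsPreconnected C ∧ x ∈ C ∧ s ∈ C := by
  have m0 := left_mem_Icc.2 (zero_le_one' ℝ)
  have m1 := right_mem_Icc.2 (zero_le_one' ℝ)
  rcases G.tri x with k | ⟨_, k, u, u1, rfl, rfl⟩ | ⟨_, k, u, u1, rfl, rfl⟩
  · exact ⟨x, k, {x}, singleton_subset_iff.2 hx, isPreconnected_singleton, rfl, rfl⟩
  · exact ⟨_, k, _, (L.in_dn h H u1 (L1.s_fu G k).2 hx).image_subset,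
      isPreconnected_Icc.image u u1.1, ⟨1, m1, rfl⟩, 0, m0, rfl⟩
  · exact ⟨_, k, _, (L.in_up h H u1 hx (L1.s_fu G k).1).image_subset,
      isPreconnected_Icc.image u u1.1, ⟨0, m0, rfl⟩, 1, m1, rfl⟩

theorem hull (L : L1) (g1 : GONE) (g2 : ORD) : HULL := fun M S K =>
  ⟨fun _ H _ _ _ ab k m n n' => meets L g1 g2 K.toGH0 H ab k m n n',
    fun _ o m => of_meets L.b K.st (g1 M S K.toGH0) o m, P354CB51.base L g1 g2 K,
    fun _ H _ hx => con L K.st (g1 M S K.toGH0) H hx⟩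

end Vale.Agent.P354CB41
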