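import Vale.Agent.P354CB75.KA0

/-!
The set of identified points is closed.
-/

set_option linter.all false

open Set Filter Topology

namespace Vale.Agent.P354CB41

open Vale.Agent.P354n
open Vale.Agent.P354I (X Dat)
open Vale.Agent.P354J (PDy)
open Vale.Agent.P354CB

variable {d : Dat} {A B : LD d} {U : Set A.N.pt} {ψ : A.N.pt → B.N.pt}

/-- The largest common development is a pair. -/
theorem pair (Z : L0) (T : L3) (hd : PDy d) (C : Com A B U ψ)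
    (hm : ∀ x x', Rel A B x x' ↔ x ∈ U ∧ ψ x = x') : ∃ φ, Pair A.N B.N A.S B.S U ψ φ := by
  obtain ⟨φ, C', hφ⟩ := T.symm d hd A B U ψ C
  have gA := Z.l2.ac d A.O A.N A.j hd A.h
  have gB := Z.l2.ac d B.O B.N B.j hd B.h
  refine ⟨φ, gA, gB, C.hull, C'.hull, fun x hx => ⟨C.lm x hx, hφ x hx, C'.lm _ ⟨x, hx, rfl⟩⟩,
    T.side d hd A B U ψ C, ?_⟩
  rintro _ ⟨y, hy, rfl⟩ q' hq
  have cl : IsClosed B.S := Z.l1.closed_s gB.st (Z.l2.g1 _ _ gB.toGH0)
  have m : q' ∈ B.S := by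
    refine cl.closure_subset_iff.2 (Subset.refl _) ?_
    refine map_mem_closure continuous_snd hq ?_
    rintro _ ⟨x, hx, rfl⟩
    exact (T.side d hd A B U ψ C x hx.1).1.1 hx.2
  obtain ⟨y', hy', rfl⟩ := m
  have E := (A.h.emb.prodMap B.h.emb).isInducing
  have cs : IsClosed {q : A.O × B.O | (q.1 : X) = q.2} := isClosed_eq (by fun_prop) (by fun_prop)
  have k : ((⟨y, hy⟩, ⟨y', hy'⟩) : A.O × B.O) ∈ closure {q : A.O × B.O | (q.1 : X) = q.2} := by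
    rw [E.closure_eq_preimage_closure_image]
    refine closure_mono ?_ hq
    rintro _ ⟨_, ⟨hx, z, hz, rfl⟩, rfl⟩
    obtain ⟨z1, z2⟩ := C.sl z hz hx
    exact ⟨(⟨z, hz⟩, ⟨z, z1⟩), rfl, Prod.ext rfl z2.symm⟩
  rw [cs.closure_eq] at k
  obtain rfl : y = y' := k
  exact ((hm _ _).1 (T.base d hd A B y hy hy')).1

/-- The largest common development has no extension off the slice. -/
theorem no_ext (Z : L0) (C : Com A B U ψ) (hm : ∀ x x', Rel A B x x' ↔ x ∈ U ∧ ψ x = x')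
    {D : Set A.N.pt} {χ : A.N.pt → B.N.pt} (hD : IsOpen D) (H : Hull A.N A.S (U ∪ D))
    (hS : ∀ x ∈ D, x ∉ A.S) (lm : ∀ x ∈ D, LM χ x) (e : EqOn χ ψ (D ∩ U)) : D ⊆ U := by
  classical
  have C' : Com A B (U ∪ D) (U.piecewise ψ χ) := by
    refine ⟨H, fun x hx => ?_, fun y hy k => ?_⟩
    · rcases hx with hx | hx
      · exact Z.k1.congr (C.lm x hx)
          ((C.hull.op.eventually_mem hx).mono fun z hz => piecewise_eq_of_mem _ _ _ hz)
      · refine Z.k1.congr (lm x hx) ((hD.eventually_mem hx).mono fun z hz => ?_)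
        by_cases k : z ∈ U
        · rw [piecewise_eq_of_mem _ _ _ k, e ⟨hz, k⟩]
        · exact piecewise_eq_of_notMem _ _ _ k
    · have k' : A.j y ∈ U := k.resolve_right fun l => hS _ l ⟨y, hy, rfl⟩
      rw [piecewise_eq_of_mem _ _ _ k']
      exact C.sl y hy k'
  exact fun x hx => ((hm _ _).1 ⟨_, _, C', Or.inr hx, rfl⟩).1

theorem key (Z : L0) (T : L3) (K0 : KEY0) : KEY := by
  intro d hd A B
  obtain ⟨U, ψ, C, hm⟩ := T.max d hd A B
  obtain ⟨φ, P⟩ := pair Z T hd C hm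
  have hA := P.gM.st
  have hB := P.gN.st
  have G := Z.l2.g1 _ _ P.gM.toGH0
  have e : {q : A.N.pt × B.N.pt | Rel A B q.1 q.2} = gr U ψ := by
    ext ⟨x, x'⟩
    simp only [mem_setOf_eq, hm, gr, mem_image, Prod.mk.injEq]
    exact ⟨fun h => ⟨x, h.1, rfl, h.2⟩, fun ⟨z, h1, h2, h3⟩ => h2 ▸ ⟨h1, h3⟩⟩
  rw [e, ← closure_subset_iff_isClosed]
  rintro ⟨p, p'⟩ hp
  have hU : p ∈ U := by
    by_contra n
    by_cases k : p ∈ Pa A.N A.S
    · obtain ⟨D, χ, h1, h2, h3, h4, h5, h6⟩ := K0 _ _ _ _ _ _ _ (P354CB75.pair_rev Z P) p p' hp n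
        (by rw [Z.l1.b.pa_rev hA]; exact fun l => Z.l1.fu_pa hA G l k)
      rw [Z.l1.b.fu_rev hA] at h3
      exact h4 (no_ext Z C hm h1 ((Z.l1.b.hull_rev hA).1 h2)
        (fun x hx l => (L1.s_fu G l).2 (h3 hx)) (fun x hx => (Z.k1.rev hB).1 (h5 x hx)) h6)
    · obtain ⟨D, χ, h1, h2, h3, h4, h5, h6⟩ := K0 _ _ _ _ _ _ _ P p p' hp n k
      exact h4 (no_ext Z C hm h1 h2 (fun x hx l => (L1.s_fu G l).1 (h3 hx)) h5 h6)
  refine ⟨p, hU, Prod.ext rfl ?_⟩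
  haveI := mem_closure_iff_nhdsWithin_neBot.1 hp
  have t1 : Tendsto (fun q : A.N.pt × B.N.pt => ψ q.1) (𝓝[gr U ψ] (p, p')) (𝓝 (ψ p)) :=
    ((C.lm p hU).1.tendsto.comp (continuous_fst.tendsto (p, p'))).mono_left nhdsWithin_le_nhds
  have t2 : Tendsto (fun q : A.N.pt × B.N.pt => q.2) (𝓝[gr U ψ] (p, p')) (𝓝 p') :=
    (continuous_snd.tendsto (p, p')).mono_left nhdsWithin_le_nhds
  refine tendsto_nhds_unique (t1.congr' ?_) t2
  filter_upwards [self_mem_nhdsWithin]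
  rintro _ ⟨x, -, rfl⟩
  rfl

end Vale.Agent.P354CB41
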